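import Vale.Agent.P165.FXZ.Resample

/-!
# Many pivotal edges near seeds make a long path in a ball

If closing each of many open edges turns a connection into a cluster with an exit close to one of its
seeds, then all these edges but the first lie on one short-range path.
-/

namespace Vale.Agent.P165.FXZ

open Finset FF

variable {V : Type} [DecidableEq V]

open Classical in
/-- `v` is joined to `a` inside `U`. -/
noncomputable def InC (U : Finset V) (a : V) (η : Finset (Sym2 V)) (v : V) : Prop :=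
  cl (η.filter fun e => ∀ u ∈ e, u ∈ U) a v

/-- `a` is joined to the target. -/
def Hit (T : Set V) (a : V) (η : Finset (Sym2 V)) : Prop := ∃ t ∈ T, cl η a t

/-- No connection to the target, and the edge `e` leaves the cluster inside the ball of a seed,
with a path from its other end to the target inside that ball and off the cluster. -/
def Exit (U : Finset V) (a : V) (T : Set V) (Z : Finset V) (B : V → Set V) (η : Finset (Sym2 V))
    (e : Sym2 V) : Prop :=
  ¬ Hit T a η ∧ ∃ z ∈ Z, InC U a η z ∧ ∃ y x : V, e = s(y, x) ∧ InC U a η y ∧ y ≠ x ∧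
    y ∈ B z ∧ x ∈ B z ∧ ∃ t ∈ T, ∃ σ : (SimpleGraph.fromEdgeSet (η : Set (Sym2 V))).Walk x t,
      ∀ v ∈ σ.support, v ∈ B z ∧ ¬ InC U a η v

/-- A simple path of `K` steps from `x` inside `B`. -/
def LongPath (B : Set V) (x : V) (K : ℕ) (η : Finset (Sym2 V)) : Prop :=
  ∃ v, ∃ σ : (SimpleGraph.fromEdgeSet (η : Set (Sym2 V))).Walk x v,
    σ.IsPath ∧ σ.length = K ∧ ∀ u ∈ σ.support, u ∈ B

omit [DecidableEq V] in
theorem inc_longPath (B : Set V) (x : V) (K : ℕ) : Inc (LongPath B x K) := by
  rintro η η' h ⟨v, σ, hσ, hlen, hin⟩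
  refine ⟨v, σ.mapLe (SimpleGraph.fromEdgeSet_mono fun e he => h he), hσ.mapLe _, ?_, ?_⟩
  · simp [SimpleGraph.Walk.mapLe, hlen]
  · simpa [SimpleGraph.Walk.mapLe] using hin

open Classical in
/-- More than `K` such pivotal edges give a connection inside `U` to some `y` and, disjointly, a
path of `K` steps inside the ball of a seed, from a neighbour of `y`. -/
theorem pivots (U : Finset V) (a : V) (T : Set V) (Z : Finset V) (B : V → Set V)
    {η : Finset (Sym2 V)} {K : ℕ}
    (hK : K < (η.filter fun e => Exit U a T Z B (η.erase e) e).card) :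
    ∃ z ∈ Z, ∃ y x : V, y ∈ B z ∧ x ∈ B z ∧ y ≠ x ∧ s(y, x) ∈ η ∧
      box (fun L => InC U a L y) (LongPath (B z) x K) η := by
  set P := η.filter fun e => Exit U a T Z B (η.erase e) e with hP
  have hne : P.Nonempty := card_pos.1 (by omega)
  -- the part of the cluster left when an edge is closed
  let comp : Sym2 V → Finset V := fun e => (insert a (η.biUnion Sym2.toFinset)).filter (cl (η.erase e) a)
  have hcomp : ∀ e v, v ∈ comp e ↔ cl (η.erase e) a v := by
    intro e v
    refine ⟨fun h => (mem_filter.1 h).2, fun h => mem_filter.2 ⟨?_, h⟩⟩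
    by_cases hv : v = a
    · exact hv ▸ mem_insert_self _ _
    obtain ⟨w⟩ := h.symm
    cases w with
    | nil => exact absurd rfl hv
    | cons hadj _ =>
      refine mem_insert_of_mem (mem_biUnion.2
        ⟨_, (mem_erase.1 ((SimpleGraph.fromEdgeSet_adj _).1 hadj).1).2, ?_⟩)
      simp
  obtain ⟨e₁, he₁, hmin⟩ := exists_min_image P (fun e => (comp e).card) hne
  obtain ⟨he₁η, hno₁, z, hz, -, y, x, rfl, hy, hyx, hyB, hxB, t, ht, τ₀, hτ₀⟩ := mem_filter.1 he₁
  set σ := τ₀.bypass
  have hσ : ∀ v ∈ σ.support, v ∈ B z ∧ ¬ InC U a (η.erase s(y, x)) v :=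
    fun v hv => hτ₀ v (τ₀.support_bypass_subset_support hv)
  have hσE : ∀ f ∈ σ.edges, f ∈ (η.erase s(y, x)) := fun f hf => by
    have := σ.edges_subset_edgeSet hf
    rw [SimpleGraph.edgeSet_fromEdgeSet] at this
    exact this.1
  obtain ⟨α₀⟩ := hy
  set α := α₀.bypass
  have hαE : ∀ f ∈ α.edges, f ∈ (η.erase s(y, x)).filter fun e => ∀ u ∈ e, u ∈ U := fun f hf => by
    have := α.edges_subset_edgeSet hf
    rw [SimpleGraph.edgeSet_fromEdgeSet] at this
    exact this.1
  have hαC : ∀ v ∈ α.support, InC U a (η.erase s(y, x)) v := fun v hv => ⟨α.takeUntil v hv⟩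
  have hxy : cl η y x := cl_edge hyx he₁η
  -- every other edge of the family lies on `σ`
  have hon : ∀ e ∈ P, e ≠ s(y, x) → e ∈ σ.edges := by
    intro e he hne'
    by_contra hnot
    obtain ⟨-, hno, -⟩ := mem_filter.1 he
    have hσe : cl (η.erase e) x t := cl_of_walk σ fun f hf =>
      mem_erase.2 ⟨fun h => hnot (h ▸ hf), (mem_erase.1 (hσE f hf)).2⟩
    have hyxe : cl (η.erase e) y x := cl_edge hyx (mem_erase.2 ⟨hne'.symm, he₁η⟩)
    by_cases hα : e ∈ α.edges
    swap
    · refine hno ⟨t, ht, ((cl_of_walk α fun f hf => ?_).trans hyxe).trans hσe⟩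
      exact mem_erase.2 ⟨fun h => hα (h ▸ hf), (mem_erase.1 (mem_filter.1 (hαE f hf)).1).2⟩
    -- then closing `e` leaves a strictly smaller part
    have hsub : ∀ v, cl (η.erase e) a v → cl (η.erase s(y, x)) a v ∧ v ≠ y := by
      intro v hv
      have hay : ¬ cl (η.erase e) a y := fun h => hno ⟨t, ht, (h.trans hyxe).trans hσe⟩
      refine ⟨?_, fun h => hay (h ▸ hv)⟩
      obtain ⟨w⟩ := hv
      refine cl_of_walk w fun f hf => ?_
      have hfE := w.edges_subset_edgeSet hf
      rw [SimpleGraph.edgeSet_fromEdgeSet] at hfE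
      refine mem_erase.2 ⟨fun h => hay ?_, (mem_erase.1 hfE.1).2⟩
      exact ⟨w.takeUntil y (w.fst_mem_support_of_mem_edges (h ▸ hf))⟩
    have hlt : (comp e).card < (comp s(y, x)).card := by
      refine card_lt_card ⟨fun v hv => (hcomp _ v).2 (hsub v ((hcomp e v).1 hv)).1, fun h => ?_⟩
      have hy' : y ∈ comp s(y, x) :=
        (hcomp _ y).2 (cl_mono (filter_subset _ _) (hαC y α.end_mem_support))
      exact (hsub y ((hcomp e y).1 (h hy'))).2 rfl
    exact absurd (hmin e he) (not_le.2 hlt)
  have hlen : K ≤ σ.length := by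
    have h1 : P.erase s(y, x) ⊆ σ.edges.toFinset := fun e he =>
      List.mem_toFinset.2 (hon e (mem_erase.1 he).2 (mem_erase.1 he).1)
    have h2 := (card_le_card h1).trans (List.toFinset_card_le _)
    rw [card_erase_of_mem he₁, SimpleGraph.Walk.length_edges] at h2
    omega
  refine ⟨z, hz, y, x, hyB, hxB, hyx, he₁η, α.edges.toFinset, σ.edges.toFinset, ?_, ?_, ?_, ?_, ?_⟩
  · exact fun f hf => (mem_erase.1 (mem_filter.1 (hαE f (List.mem_toFinset.1 hf))).1).2
  · exact fun f hf => (mem_erase.1 (hσE f (List.mem_toFinset.1 hf))).2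
  · refine disjoint_left.2 fun f hf hf' => ?_
    rw [List.mem_toFinset] at hf hf'
    induction f using Sym2.ind with
    | _ u v =>
      exact absurd (hαC u (α.fst_mem_support_of_mem_edges hf))
        (hσ u (σ.fst_mem_support_of_mem_edges hf')).2
  · exact cl_of_walk α fun f hf => mem_filter.2
      ⟨List.mem_toFinset.2 hf, (mem_filter.1 (hαE f hf)).2⟩
  · have hsubg : ∀ f ∈ σ.edges, f ∈ (SimpleGraph.fromEdgeSet
        (σ.edges.toFinset : Set (Sym2 V))).edgeSet := fun f hf => by
      rw [SimpleGraph.edgeSet_fromEdgeSet]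
      exact ⟨List.mem_toFinset.2 hf,
        fun hd => (SimpleGraph.not_isDiag_of_mem_edgeSet _ (σ.edges_subset_edgeSet hf)) hd⟩
    set σ' := σ.transfer _ hsubg
    have hσ' : σ'.IsPath := τ₀.bypass_isPath.transfer hsubg
    refine ⟨_, σ'.take K, hσ'.take K, ?_, fun u hu => ?_⟩
    · simp [σ', hlen]
    · rw [SimpleGraph.Walk.support_take] at hu
      exact (hσ u (by simpa [σ'] using List.mem_of_mem_take hu)).1

end Vale.Agent.P165.FXZ
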