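import Vale.Agent.P165.FF.Perco

/-!
# Resampling the explored edges, and opening one closed edge

The edges outside an explored set are a fresh sample given what was explored, and opening a
closed edge is as many-to-one as the number of edges whose closing gives the event back.
-/

namespace Vale.Agent.P165.FXZ

open Finset FF

variable {α β : Type} [DecidableEq α] [DecidableEq β]

/-- Splitting a function of an open set along a subset of the edges. -/
theorem avg_split_fun {E A : Finset α} (hA : A ⊆ E) (p : ℝ) (h : Finset α → Finset α → ℝ) :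
    avg E p (fun η => h (η ∩ A) (η \ A)) = avg A p fun a => avg (E \ A) p (h a) := by
  have e : avg E p (fun η => h (η ∩ A) (η \ A))
      = avg E p fun η => ∑ a ∈ A.powerset, (if η ∩ A = a then 1 else 0) * h a (η \ A) :=
    avg_congr _ _ fun η _ => by simp
  rw [e, avg_sum]
  calc ∑ a ∈ A.powerset, avg E p (fun η => (if η ∩ A = a then 1 else 0) * h a (η \ A))
      = ∑ a ∈ A.powerset, wt A p a * avg (E \ A) p (h a) := sum_congr rfl fun a ha => by
        rw [avg_split hA p (fun x => if x = a then 1 else 0) (h a)]
        congr 1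
        simp [avg, mem_powerset.1 ha]
    _ = _ := rfl

/-- If an exploration with result `κ` only looks at the edges `K (κ η)`, then resampling these edges
gives a sample independent of the result. -/
theorem resample (E : Finset α) (p : ℝ) (κ : Finset α → β) (K : β → Finset α)
    (hK : ∀ η, η ⊆ E → K (κ η) ⊆ E)
    (hloc : ∀ η η', η ⊆ E → η' ⊆ E → η' ∩ K (κ η) = η ∩ K (κ η) → κ η' = κ η)
    (g : β → ℝ) (f : Finset α → ℝ) :
    avg E p (fun η => g (κ η) * avg (K (κ η)) p fun ξ => f ((η \ K (κ η)) ∪ ξ))
      = avg E p (fun η => g (κ η)) * avg E p f := by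
  set C := E.powerset.image κ
  have hsum : ∀ F : β → Finset α → ℝ, avg E p (fun η => F (κ η) η)
      = ∑ c ∈ C, avg E p fun η => (if κ η = c then 1 else 0) * F c η := by
    intro F
    rw [← avg_sum]
    refine avg_congr _ _ fun η hη => ?_
    have hc : κ η ∈ C := mem_image_of_mem _ (mem_powerset.2 hη)
    simp [hc]
  rw [hsum fun c η => g c * avg (K c) p fun ξ => f ((η \ K c) ∪ ξ), hsum fun c _ => g c, sum_mul]
  refine sum_congr rfl fun c hc => ?_
  obtain ⟨η₀, hη₀, rfl⟩ := mem_image.1 hc
  rw [mem_powerset] at hη₀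
  set A := K (κ η₀)
  have hA : A ⊆ E := hK η₀ hη₀
  -- the result `κ η₀` depends on the edges `A` only
  have hind : ∀ η, η ⊆ E → (κ η = κ η₀ ↔ κ (η ∩ A) = κ η₀) := by
    intro η hη
    have hηA : η ∩ A ⊆ E := inter_subset_left.trans hη
    constructor
    · intro h
      have := hloc η (η ∩ A) hη hηA (by rw [h, inter_assoc, inter_self])
      rw [this, h]
    · intro h
      have := hloc (η ∩ A) η hηA hη (by rw [h, inter_assoc, inter_self])
      rw [this, h]
  have hfresh : avg (E \ A) p (fun ζ => avg A p fun ξ => f (ζ ∪ ξ)) = avg E p f := by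
    have h1 : avg E p f = avg E p fun η => f (η \ A ∪ η ∩ A) :=
      avg_congr _ _ fun η _ => by rw [sdiff_union_inter]
    rw [h1, avg_split_fun hA p fun a ζ => f (ζ ∪ a), avg, avg]
    simp only [avg, mul_sum]
    rw [sum_comm]
    exact sum_congr rfl fun a _ => sum_congr rfl fun b _ => by ring
  rw [avg_congr E p (g := fun η => (fun a => (if κ a = κ η₀ then g (κ η₀) else 0)) (η ∩ A) *
      (fun ζ => avg A p fun ξ => f (ζ ∪ ξ)) (η \ A)) fun η hη => by
        by_cases h : κ η = κ η₀
        · simp [h, (hind η hη).1 h, A]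
        · simp only [if_neg h, if_neg fun h' => h ((hind η hη).2 h'), zero_mul],
    avg_split hA p (fun a => if κ a = κ η₀ then g (κ η₀) else 0)
      (fun ζ => avg A p fun ξ => f (ζ ∪ ξ)), hfresh]
  congr 1
  have h2 := avg_split hA p (fun a => if κ a = κ η₀ then g (κ η₀) else 0) fun _ => (1 : ℝ)
  rw [avg_one, mul_one] at h2
  rw [← h2]
  refine avg_congr _ _ fun η hη => ?_
  by_cases h : κ η = κ η₀
  · simp [h, (hind η hη).1 h]
  · simp only [if_neg h, if_neg fun h' => h ((hind η hη).2 h'), zero_mul, mul_one]

open Classical in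
/-- An event holding with a closed edge costs the number of open edges giving it back. -/
theorem avg_open_edge (E : Finset α) {p : ℝ} (hp : p ≠ 0) (Q : Finset α → α → Prop) :
    avg E p (fun η => ∑ e ∈ E \ η, ind (Q η e))
      = (1 - p) / p * avg E p fun η => ∑ e ∈ η, ind (Q (η.erase e) e) := by
  have hL : ∀ η, η ⊆ E → ∑ e ∈ E \ η, ind (Q η e) = ∑ e ∈ E, if e ∈ η then 0 else ind (Q η e) :=
    fun η _ => by rw [sdiff_eq_filter, sum_filter]; exact sum_congr rfl fun e _ => by split_ifs <;> rfl
  have hR : ∀ η, η ⊆ E → ∑ e ∈ η, ind (Q (η.erase e) e)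
      = ∑ e ∈ E, if e ∈ η then ind (Q (η.erase e) e) else 0 := fun η hη => by
    rw [sum_ite_mem, inter_eq_right.2 hη]
  rw [avg_congr E p hL, avg_congr E p hR, avg_sum, avg_sum, mul_sum]
  refine sum_congr rfl fun e he => ?_
  have hne : e ∉ E.erase e := notMem_erase e E
  have h1 := avg_insert hne p fun η => if e ∈ η then 0 else ind (Q η e)
  have h2 := avg_insert hne p fun η => if e ∈ η then ind (Q (η.erase e) e) else 0
  rw [insert_erase he] at h1 h2
  rw [h1, h2]
  have c1 : avg (E.erase e) p (fun η => if e ∈ η then 0 else ind (Q η e))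
      = avg (E.erase e) p fun η => ind (Q η e) :=
    avg_congr _ _ fun η hη => if_neg fun h => hne (hη h)
  have c2 : avg (E.erase e) p (fun η => if e ∈ insert e η then (0 : ℝ) else ind (Q (insert e η) e))
      = 0 := by simp [avg]
  have c3 : avg (E.erase e) p (fun η => if e ∈ η then ind (Q (η.erase e) e) else 0) = 0 :=
    (avg_congr _ _ fun η hη => if_neg fun h => hne (hη h)).trans (by simp [avg])
  have c4 : avg (E.erase e) p
      (fun η => if e ∈ insert e η then ind (Q ((insert e η).erase e) e) else 0)
      = avg (E.erase e) p fun η => ind (Q η e) := avg_congr _ _ fun η hη => by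
    rw [if_pos (mem_insert_self e η), erase_insert fun h => hne (hη h)]
  rw [c1, c2, c3, c4]
  field_simp
  ring

end Vale.Agent.P165.FXZ
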